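/-
Row 239 (S0475).  INTERFACE, layer HIL (Hilbert theory at the infinite level).  Statements by helper28.
LAYERS (import DAG):  Defs <- Iface/HIL <- Iface/TAME ; Iface/XCHAR ; Iface/SPL <- Iface/XL ; Iface/LC ;
aggregator `Iface.lean` imports all layers (ONLY for GEN, MATCH, Glue).
Packages below a layer (HIL, TAME, SPL, XL, LC, CFT, LOG) must NEVER import the aggregator.
The sorries of a layer are replaced in place (the file may import the package that proves them).
-/
import Claimed.Agent.R239.Glue.BaseChange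
import Claimed.Agent.R239.Tame.HilBasic
import Claimed.Agent.R239.Tame.HilProf
import Claimed.Agent.R239.Tame.HilTower
import Claimed.Agent.R239.Tame.HilInter

set_option autoImplicit false
set_option linter.unusedSectionVars false

namespace Claimed.Agent.R239

open NumberField Claims.C0403
open scoped Pointwise

variable {F E : Type} [Field F] [NumberField F] [Field E] [Algebra F E] [IsGalois F E]

/-! ## HIL : Hilbert theory at the infinite level -/

/-- `M_U` is a number field. -/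
theorem hil_numberField (U : Subgroup Gal(E/F)) (hU : IsOpen (U : Set Gal(E/F))) :
    NumberField (fld U) :=
  bc_numberField U hU

/-- Every prime of `E` lies over a unique rational prime. -/
theorem hil_exists_over (P : Ideal (𝓞 E)) [P.IsMaximal] : ∃ p : ℕ, p.Prime ∧ Over P p :=
  hbas_exists_over P

theorem hil_over_unique (P : Ideal (𝓞 E)) [P.IsMaximal] {p q : ℕ} (hp : p.Prime) (hq : q.Prime)
    (h : Over P p) (h' : Over P q) : p = q :=
  hbas_over_unique P hp hq h h'

/-- `N v` is a positive power of the residue characteristic, of exponent `≤ [M_U : ℚ]`. -/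
theorem hil_normAt (U : Subgroup Gal(E/F)) (hU : IsOpen (U : Set Gal(E/F)))
    (P : Ideal (𝓞 E)) [P.IsMaximal] {p : ℕ} (hp : p.Prime) (h : Over P p) :
    ∃ f : ℕ, 0 < f ∧ f ≤ Module.finrank ℚ (fld U) ∧ normAt U P = p ^ f :=
  hbas_normAt U hU P hp h

/-- Primes of `M_U` extend to `E`. -/
theorem hil_exists_above (U : Subgroup Gal(E/F)) (𝔭 : Ideal (𝓞 (fld U))) [𝔭.IsMaximal] :
    ∃ P : Ideal (𝓞 E), P.IsMaximal ∧ below U P = 𝔭 :=
  hbas_exists_above U 𝔭

theorem hil_below_isMaximal (U : Subgroup Gal(E/F)) (P : Ideal (𝓞 E)) [P.IsMaximal] :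
    (below U P).IsMaximal :=
  hbas_below_isMaximal U P

/-- `U` permutes transitively the primes of `E` above a prime of `M_U`. -/
theorem hil_transitive (U : Subgroup Gal(E/F)) (hU : IsOpen (U : Set Gal(E/F)))
    (P Q : Ideal (𝓞 E)) [P.IsMaximal] [Q.IsMaximal] (h : below U P = below U Q) :
    ∃ g ∈ U, g • P = Q :=
  hilp_transitive U hU P Q h

/-- Only finitely many primes of `M_U` lie over a rational prime. -/
theorem hil_finite_over (U : Subgroup Gal(E/F)) (hU : IsOpen (U : Set Gal(E/F))) (p : ℕ)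
    (hp : p.Prime) :
    {𝔭 : Ideal (𝓞 (fld U)) | ∃ P : Ideal (𝓞 E), P.IsMaximal ∧ Over P p ∧ below U P = 𝔭}.Finite :=
  hbas_finite_over U hU p hp

/-- Frobenius lifts exist. -/
theorem hil_exists_frob (U : Subgroup Gal(E/F)) (hU : IsOpen (U : Set Gal(E/F)))
    (P : Ideal (𝓞 E)) [P.IsMaximal] : ∃ σ, IsFrob U P σ :=
  hilp_exists_frob U hU P

theorem hil_frob_mem_decomp {U : Subgroup Gal(E/F)} {P : Ideal (𝓞 E)} [P.IsMaximal]
    {σ : Gal(E/F)} (h : IsFrob U P σ) : σ ∈ decomp F P :=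
  hbas_frob_mem_decomp h

theorem hil_inert_le_decomp (P : Ideal (𝓞 E)) : inert F P ≤ decomp F P :=
  hbas_inert_le_decomp P

/-- Frobenius lifts are unique modulo inertia. -/
theorem hil_frob_unique {U : Subgroup Gal(E/F)} {P : Ideal (𝓞 E)} [P.IsMaximal]
    {σ σ' : Gal(E/F)} (h : IsFrob U P σ) (h' : IsFrob U P σ') : σ⁻¹ * σ' ∈ inert F P :=
  hbas_frob_unique h h'

theorem hil_frob_mul_inert {U : Subgroup Gal(E/F)} {P : Ideal (𝓞 E)} [P.IsMaximal]
    {σ i : Gal(E/F)} (h : IsFrob U P σ) (hi : i ∈ inert F P ⊓ U) : IsFrob U P (σ * i) :=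
  hbas_frob_mul_inert h hi

/-- `D_U(P)` is topologically generated by a Frobenius lift and `I_U(P)`. -/
theorem hil_decomp_closure {U : Subgroup Gal(E/F)} (hU : IsOpen (U : Set Gal(E/F)))
    {P : Ideal (𝓞 E)} [P.IsMaximal] {σ : Gal(E/F)} (h : IsFrob U P σ) {g : Gal(E/F)}
    (hg : g ∈ decomp F P ⊓ U) :
    g ∈ closure ((Subgroup.zpowers σ ⊔ (inert F P ⊓ U) : Subgroup Gal(E/F)) : Set Gal(E/F)) :=
  hilp_decomp_closure hU h hg

/-- Transport of structure by `g ∈ Gal(E/F)`. -/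
theorem hil_normAt_conj (U : Subgroup Gal(E/F)) (P : Ideal (𝓞 E)) (g : Gal(E/F)) :
    normAt (MulAut.conj g • U) (g • P) = normAt U P :=
  hbas_normAt_conj U P g

theorem hil_frob_conj {U : Subgroup Gal(E/F)} {P : Ideal (𝓞 E)} {σ : Gal(E/F)}
    (h : IsFrob U P σ) (g : Gal(E/F)) :
    IsFrob (MulAut.conj g • U) (g • P) (g * σ * g⁻¹) :=
  hbas_frob_conj h g

theorem hil_decomp_conj (P : Ideal (𝓞 E)) (g : Gal(E/F)) :
    decomp F (g • P) = MulAut.conj g • decomp F P :=
  hbas_decomp_conj P g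

theorem hil_inert_conj (P : Ideal (𝓞 E)) (g : Gal(E/F)) :
    inert F (g • P) = MulAut.conj g • inert F P :=
  hbas_inert_conj P g

theorem hil_over_smul {P : Ideal (𝓞 E)} {p : ℕ} (h : Over P p) (g : Gal(E/F)) :
    Over (g • P) p :=
  hbas_over_smul h g

/-- Towers: if `V ≤ U` and `f` is the least positive exponent with `σ ^ f ∈ V · I_U(P)`, then
`N_V(P) = N_U(P) ^ f` and `σ ^ f i` is a Frobenius lift for `V`. -/
theorem hil_tower {U V : Subgroup Gal(E/F)} (hV : IsOpen (V : Set Gal(E/F))) (hVU : V ≤ U)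
    {P : Ideal (𝓞 E)} [P.IsMaximal] {σ : Gal(E/F)} (h : IsFrob U P σ) :
    ∃ f : ℕ, 0 < f ∧ normAt V P = normAt U P ^ f ∧
      (∃ i ∈ inert F P ⊓ U, IsFrob V P (σ ^ f * i)) ∧
      ∀ j : ℕ, 0 < j → (∃ i ∈ inert F P ⊓ U, σ ^ j * i ∈ V) → f ∣ j :=
  htow_tower hV hVU h

/-- All but finitely many rational primes are unramified in `M_V / M_U`. -/
theorem hil_unram_cofinite (U V : Subgroup Gal(E/F)) (hV : IsOpen (V : Set Gal(E/F)))
    (hVU : V ≤ U) :
    {p : ℕ | p.Prime ∧ ∃ P : Ideal (𝓞 E), P.IsMaximal ∧ Over P p ∧ ¬ UnramIn U V P}.Finite :=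
  htow_unram_cofinite U V hV hVU

/-- TRIVIAL INTERSECTION: distinct primes of a solvably closed `E` have decomposition groups with
trivial intersection. -/
theorem hil_trivial_inter (hE : SolvablyClosed E) (P Q : Ideal (𝓞 E)) [P.IsMaximal] [Q.IsMaximal]
    {g : Gal(E/F)} (hg : g ≠ 1) (hP : g ∈ decomp F P) (hQ : g ∈ decomp F Q) : P = Q :=
  hint_trivial_inter hE P Q hg hP hQ

/-- Decomposition and inertia groups are closed. -/
theorem hil_decomp_isClosed (P : Ideal (𝓞 E)) [P.IsMaximal] :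
    IsClosed (decomp F P : Set Gal(E/F)) :=
  htow_decomp_isClosed P

theorem hil_inert_isClosed (P : Ideal (𝓞 E)) [P.IsMaximal] :
    IsClosed (inert F P : Set Gal(E/F)) :=
  htow_inert_isClosed P

/-- `D / I` is abelian. -/
theorem hil_comm_mem_inert (P : Ideal (𝓞 E)) [P.IsMaximal] {g h : Gal(E/F)}
    (hg : g ∈ decomp F P) (hh : h ∈ decomp F P) : g * h * g⁻¹ * h⁻¹ ∈ inert F P :=
  htow_comm_mem_inert P hg hh

/-- `I` is normal in `D`. -/
theorem hil_inert_normal (P : Ideal (𝓞 E)) [P.IsMaximal] {g h : Gal(E/F)}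
    (hg : g ∈ decomp F P) (hh : h ∈ inert F P) : g * h * g⁻¹ ∈ inert F P :=
  htow_inert_normal P hg hh

end Claimed.Agent.R239
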