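/-
Row 239 (S0475).  INTERFACE, layer SPL.  See the header of Iface/HIL.lean for the layer rules.
-/
import Claimed.Agent.R239.Iface.HIL
import Claimed.Agent.R239.SPL.Bridge

set_option autoImplicit false

namespace Claimed.Agent.R239

open NumberField Claims.C0403
open scoped Pointwise

variable {F E : Type} [Field F] [NumberField F] [Field E] [Algebra F E] [IsGalois F E]

/-! ## SPL : weak Chebotarev from the density of split primes -/

/-- For `V ≤ U` open, `V` normal in `U`, and `γ ∈ U` there are infinitely many rational primes `q`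
with a prime `P ∣ q` of `E`, of degree one over `M_U`, unramified in `M_V / M_U`, whose Frobenius
generates the same subgroup of `U / V` as `γ`. -/
theorem spl_cyclic (U V : Subgroup Gal(E/F)) (hV : IsOpen (V : Set Gal(E/F))) (hVU : V ≤ U)
    (hn : ∀ u ∈ U, ∀ v ∈ V, u * v * u⁻¹ ∈ V) (γ : Gal(E/F)) (hγ : γ ∈ U) :
    {q : ℕ | q.Prime ∧ ∃ (P : Ideal (𝓞 E)) (σ : Gal(E/F)), P.IsMaximal ∧ Over P q ∧ normAt U P = q ∧
      UnramIn U V P ∧ IsFrob U P σ ∧ Subgroup.zpowers σ ⊔ V = Subgroup.zpowers γ ⊔ V}.Infinite :=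
  SPL.spl_cyclic_main U V hV hVU hn γ hγ

end Claimed.Agent.R239
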