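/-
Row 239 (S0475).  INTERFACE, layer XCHAR (pure topological group theory).
See the header of Iface/HIL.lean for the layer rules.
-/
import Claimed.Agent.R239.GEN.Res

set_option autoImplicit false

namespace Claimed.Agent.R239


/-- (I3) (pure group theory) for `V ≤ U`, `V` open and normal in `G`: restriction identifies `X(U)`
with the `U`-invariants of `X(V)`. -/
theorem xchar_res_injective {G : Type*} [Group G] [TopologicalSpace G] [IsTopologicalGroup G]
    [CompactSpace G] {ℓ : ℕ} [Fact ℓ.Prime] {U V : Subgroup G} (hV : IsOpen (V : Set G))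
    (hVU : V ≤ U) : Function.Injective (XChar.res (ℓ := ℓ) hVU) :=
  gen_xchar_res_injective hV hVU

theorem xchar_res_range {G : Type*} [Group G] [TopologicalSpace G] [IsTopologicalGroup G]
    [CompactSpace G] {ℓ : ℕ} [Fact ℓ.Prime] {U V : Subgroup G} [V.Normal]
    (hV : IsOpen (V : Set G)) (hVU : V ≤ U) (y : XChar ℓ V) :
    y ∈ LinearMap.range (XChar.res (ℓ := ℓ) hVU) ↔ ∀ u ∈ U, XChar.conj V u y = y :=
  gen_xchar_res_range hV hVU y

end Claimed.Agent.R239
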