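/-
Row 239 (S0475).  INTERFACE, layer LC.  See the header of Iface/HIL.lean for the layer rules.
Both statements are proved IN PLACE from the tops of the package LC (`lc_thm24`, `lc_cover`), the bridge
to class field theory (`lc_hnt_bridge`, `lc_lni_bridge`) and `solv_radClosed`.  Owner: helper110.
-/
import Claimed.Agent.R239.Defs
import Claimed.Agent.R239.LC.MAIN
import Claimed.Agent.R239.LC.COV_c
import Claimed.Agent.R239.LC.BR_d
import Claimed.Agent.R239.Glue.NoAbelian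

set_option autoImplicit false

namespace Claimed.Agent.R239

open NumberField Claims.C0403
open scoped Pointwise

/-! ## LC : the partial local correspondence (paper Thm 2.4, Lemma 2.6), helper75 -/

section LC

/-- a Galois extension of a number field has characteristic zero. -/
theorem iface_charZero (F E : Type*) [Field F] [NumberField F] [Field E] [Algebra F E] :
    CharZero E :=
  charZero_of_injective_algebraMap (algebraMap F E).injective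

/-- an algebraic extension of a number field is algebraic over `ℚ`. -/
theorem iface_isAlgebraic (F E : Type*) [Field F] [NumberField F] [Field E] [Algebra F E]
    [Algebra.IsAlgebraic F E] [CharZero E] : Algebra.IsAlgebraic ℚ E :=
  Algebra.IsAlgebraic.trans ℚ F E

variable {F₁ E₁ F₂ E₂ : Type} [Field F₁] [NumberField F₁] [Field E₁] [Algebra F₁ E₁]
  [IsGalois F₁ E₁] [Field F₂] [NumberField F₂] [Field E₂] [Algebra F₂ E₂] [IsGalois F₂ E₂]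
  {ℓ : ℕ} [Fact ℓ.Prime]

/-- THM 2.4' : `φ : T → G₂` continuous, `ℓ` odd, `P₁ ∤ ℓ`, `τ` a tame generator at some level
`V ≤ T` with `φ τ ≠ 1` ("active").  Then there is a prime `P₂ ∤ ℓ` of `E₂` (unique by
`hil_trivial_inter`) with `φ τ ∈ I(P₂)`; every `g ∈ T ∩ D(P₁)` normalising the closure of `⟨τ⟩` is
mapped into `D(P₂)` and satisfies the norm identity `χ_ℓ(φ g) = χ_ℓ(g)`. -/
theorem lc_main (hE₁ : SolvablyClosed E₁) (hE₂ : SolvablyClosed E₂)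
    (T : Subgroup Gal(E₁/F₁)) (hT : IsOpen (T : Set Gal(E₁/F₁)))
    (φ : T →* Gal(E₂/F₂)) (hφ : Continuous φ) (hodd : ℓ ≠ 2)
    (P₁ : Ideal (𝓞 E₁)) [P₁.IsMaximal] (hP₁ : ¬ Over P₁ ℓ)
    (V : Subgroup Gal(E₁/F₁)) (hV : IsOpen (V : Set Gal(E₁/F₁))) (hVT : V ≤ T)
    (τ : Gal(E₁/F₁)) (hτ : IsTameGen ℓ V P₁ τ) (hact : φ ⟨τ, hVT hτ.mem.2⟩ ≠ 1) :
    ∃ P₂ : Ideal (𝓞 E₂), P₂.IsMaximal ∧ ¬ Over P₂ ℓ ∧ φ ⟨τ, hVT hτ.mem.2⟩ ∈ inert F₂ P₂ ∧
      ∀ (g : Gal(E₁/F₁)) (hg : g ∈ T), g ∈ decomp F₁ P₁ →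
        g * τ * g⁻¹ ∈ closure (Subgroup.zpowers τ : Set Gal(E₁/F₁)) →
        φ ⟨g, hg⟩ ∈ decomp F₂ P₂ ∧ chi ℓ F₂ E₂ (φ ⟨g, hg⟩) = chi ℓ F₁ E₁ g := by
  have := iface_charZero F₁ E₁
  have := iface_charZero F₂ E₂
  have := iface_isAlgebraic F₁ E₁
  have := iface_isAlgebraic F₂ E₂
  obtain ⟨Q, h1, h2, h3, -, -, h6⟩ := lc_thm24 (solv_radClosed hE₁) (solv_radClosed hE₂) hodd
    (lc_hnt_bridge hodd) (lc_lni_bridge hodd) hT φ hφ hV hVT P₁ hP₁ hτ hact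
  exact ⟨Q, h1, h2, h3, fun g hg _ hc => h6 g hg hc⟩

/-- COFINITE COVERAGE (Uchida 1981, Prop. 1): if moreover `φ` has open image, contained in the open
subgroup `V₂`, then all but finitely many primes of `M_{V₂}` lie below some `P₂` as in `lc_main`. -/
theorem lc_coverage (hE₁ : SolvablyClosed E₁) (hE₂ : SolvablyClosed E₂)
    (T : Subgroup Gal(E₁/F₁)) (hT : IsOpen (T : Set Gal(E₁/F₁)))
    (φ : T →* Gal(E₂/F₂)) (hφ : Continuous φ) (hφo : IsOpen (Set.range φ)) (hodd : ℓ ≠ 2)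
    (V₂ : Subgroup Gal(E₂/F₂)) (hV₂ : IsOpen (V₂ : Set Gal(E₂/F₂))) (hr : ∀ t, φ t ∈ V₂) :
    {𝔮 : Ideal (𝓞 (fld V₂)) | 𝔮.IsMaximal ∧
      ¬ ∃ (P₁ : Ideal (𝓞 E₁)) (τ : Gal(E₁/F₁)) (hτ : IsTameGen ℓ T P₁ τ) (P₂ : Ideal (𝓞 E₂)),
        P₁.IsMaximal ∧ ¬ Over P₁ ℓ ∧ P₂.IsMaximal ∧ φ ⟨τ, hτ.mem.2⟩ ≠ 1 ∧
        φ ⟨τ, hτ.mem.2⟩ ∈ inert F₂ P₂ ∧ below V₂ P₂ = 𝔮}.Finite := by
  have := iface_charZero F₁ E₁
  have := iface_charZero F₂ E₂
  have := iface_isAlgebraic F₁ E₁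
  have := iface_isAlgebraic F₂ E₂
  exact lc_cover (solv_radClosed hE₁) (solv_radClosed hE₂) hodd
    (lc_hnt_bridge hodd) (lc_lni_bridge hodd) hT φ hφ hφo hV₂ hr

end LC

end Claimed.Agent.R239
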