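/-
Row 239 (S0475).  INTERFACE, layer TAME (logarithm, tame inertia, cyclotomic character, unramifiedness of
additive characters).  Statements by helper28.  See the header of Iface/HIL.lean for the layer rules.
-/
import Claimed.Agent.R239.Iface.HIL
import Claimed.Agent.R239.Tame.Lg
import Claimed.Agent.R239.Tame.Chi
import Claimed.Agent.R239.Tame.ChiConj
import Claimed.Agent.R239.Tame.XCharTame
import Claimed.Agent.R239.Glue.NoAbelian

set_option autoImplicit false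

namespace Claimed.Agent.R239

open NumberField Claims.C0403
open scoped Pointwise

variable {F E : Type} [Field F] [NumberField F] [Field E] [Algebra F E] [IsGalois F E]

/-! ## TAME : tame inertia at `P ∤ ℓ` -/

section Tame

variable {ℓ : ℕ} [Fact ℓ.Prime]

/-- Properties of the logarithm. -/
theorem lg_mul (u v : ℤ_[ℓ]ˣ) : Lg ℓ (u * v) = Lg ℓ u + Lg ℓ v :=
  tlg_mul u v

theorem lg_continuous : Continuous (Lg ℓ) :=
  tlg_continuous

theorem lg_eq_zero_iff (u : ℤ_[ℓ]ˣ) : Lg ℓ u = 0 ↔ ∃ n : ℕ, 0 < n ∧ u ^ n = 1 :=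
  tlg_eq_zero_iff u

theorem logChi_mem : logChi ℓ F E ∈ XChar ℓ Gal(E/F) :=
  tlg_logChi_mem F E

/-- Tame generators exist. -/
theorem tame_exists_gen (hE : SolvablyClosed E) (U : Subgroup Gal(E/F))
    (hU : IsOpen (U : Set Gal(E/F))) (P : Ideal (𝓞 E)) [P.IsMaximal] (hℓ : ¬ Over P ℓ) :
    ∃ τ, IsTameGen ℓ U P τ := by
  have := tmb_charZero F E
  have := tmb_algQ F E
  exact tm_exists_gen (solv_radClosed hE) U hU P hℓ

/-- A tame generator has infinite order. -/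
theorem tame_gen_pow_ne_one (hE : SolvablyClosed E) {U : Subgroup Gal(E/F)}
    (hU : IsOpen (U : Set Gal(E/F))) {P : Ideal (𝓞 E)} [P.IsMaximal] (hℓ : ¬ Over P ℓ)
    {τ : Gal(E/F)} (hτ : IsTameGen ℓ U P τ) {n : ℕ} (hn : 0 < n) : τ ^ n ≠ 1 := by
  have := tmb_charZero F E
  have := tmb_algQ F E
  exact tm_gen_pow_ne_one (solv_radClosed hE) hU hℓ hτ hn

/-- THE TAME RELATION (two levels): if `V ≤ U` is open and normal in `U` and `τ` is a tame generator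
for `V`, then some Frobenius lift `σ` FOR `U` normalises `⟨τ⟩`, with `σ τ σ⁻¹ = τ ^ (N_U v)`.
(Frattini argument in `D_U(P)` acting on its normal subgroup `I_V(P)`; `V = U` is allowed.) -/
theorem tame_exists_frob (hE : SolvablyClosed E) {U V : Subgroup Gal(E/F)}
    (hV : IsOpen (V : Set Gal(E/F))) (hVU : V ≤ U) (hn : ∀ u ∈ U, ∀ v ∈ V, u * v * u⁻¹ ∈ V)
    {P : Ideal (𝓞 E)} [P.IsMaximal] (hℓ : ¬ Over P ℓ)
    {τ : Gal(E/F)} (hτ : IsTameGen ℓ V P τ) :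
    ∃ σ, IsFrob U P σ ∧ σ * τ * σ⁻¹ = τ ^ normAt U P := by
  have := tmb_charZero F E
  have := tmb_algQ F E
  exact tm_exists_frob hV hVU hℓ hτ

/-- Passing to an open subgroup `V` normal in `U`. -/
theorem tame_sub (hE : SolvablyClosed E) {U V : Subgroup Gal(E/F)}
    (hV : IsOpen (V : Set Gal(E/F))) (hVU : V ≤ U) (hn : ∀ u ∈ U, ∀ v ∈ V, u * v * u⁻¹ ∈ V)
    {P : Ideal (𝓞 E)} [P.IsMaximal] (hℓ : ¬ Over P ℓ) {τ : Gal(E/F)} (hτ : IsTameGen ℓ U P τ) :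
    ∃ k : ℕ, IsTameGen ℓ V P (τ ^ ℓ ^ k) := by
  have := tmb_charZero F E
  have := tmb_algQ F E
  exact tm_sub (solv_radClosed hE) hV hVU hn hℓ hτ

/-- A continuous homomorphism from `I_U(P)` to `ℚ_ℓ` which kills a tame generator is zero. -/
theorem tame_gen_detects {U : Subgroup Gal(E/F)} (hU : IsOpen (U : Set Gal(E/F)))
    {P : Ideal (𝓞 E)} [P.IsMaximal] {τ : Gal(E/F)} (hτ : IsTameGen ℓ U P τ) (c : XChar ℓ ↥(inert F P ⊓ U)) (hc : c.1 ⟨τ, hτ.mem⟩ = 0) : c = 0 := by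
  have := tmb_charZero F E
  have := tmb_algQ F E
  exact tm_gen_detects hU hτ c hc

/-- `χ_ℓ` is unramified at `P ∤ ℓ`. -/
theorem chi_inert (hE : SolvablyClosed E) {P : Ideal (𝓞 E)} [P.IsMaximal] (hℓ : ¬ Over P ℓ)
    {g : Gal(E/F)} (hg : g ∈ inert F P) : chi ℓ F E g = 1 :=
  tchi_inert hE hℓ hg

/-- `χ_ℓ(Frobenius lift) = N v`. -/
theorem chi_frob (hE : SolvablyClosed E) {U : Subgroup Gal(E/F)} {P : Ideal (𝓞 E)} [P.IsMaximal]
    (hℓ : ¬ Over P ℓ) {σ : Gal(E/F)} (hσ : IsFrob U P σ) :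
    ((chi ℓ F E σ : ℤ_[ℓ]ˣ) : ℤ_[ℓ]) = (normAt U P : ℤ_[ℓ]) :=
  tchi_frob hE hℓ hσ

/-- On `D_U(P)`, `P ∤ ℓ`, the cyclotomic character takes values in the closure of `⟨N v⟩`. -/
theorem chi_decomp (hE : SolvablyClosed E) {U : Subgroup Gal(E/F)}
    (hU : IsOpen (U : Set Gal(E/F))) {P : Ideal (𝓞 E)} [P.IsMaximal]
    (hℓ : ¬ Over P ℓ) {g : Gal(E/F)} (hg : g ∈ decomp F P ⊓ U) (n : ℕ) :
    ∃ k : ℕ, PadicInt.toZModPow n ((chi ℓ F E g : ℤ_[ℓ]ˣ) : ℤ_[ℓ]) = (normAt U P : ZMod (ℓ ^ n)) ^ k :=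
  tchi_decomp hE hU hℓ hg n

/-- The conjugation action on a pro-`ℓ` inertia element is through `χ_ℓ`: if `g ∈ D(P)`, `τ ∈ I(P)`
is a non-trivial pro-`ℓ` element and `g τ g⁻¹ = τ ^ n`, then `χ_ℓ(g) = n`. -/
theorem chi_of_conj (hE : SolvablyClosed E) {P : Ideal (𝓞 E)} [P.IsMaximal] (hℓ : ¬ Over P ℓ)
    {g τ : Gal(E/F)} (hg : g ∈ decomp F P) (hτ : τ ∈ inert F P) (hτ' : IsProL ℓ τ) (hτ1 : τ ≠ 1)
    {n : ℕ} (h : g * τ * g⁻¹ = τ ^ n) : ((chi ℓ F E g : ℤ_[ℓ]ˣ) : ℤ_[ℓ]) = (n : ℤ_[ℓ]) := by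
  have := tmb_charZero F E
  have := tmb_algQ F E
  exact tm_chi_of_conj (solv_radClosed hE) hℓ hg hτ hτ' hτ1 h

/-- Additive characters are unramified at `P ∤ ℓ`. -/
theorem xchar_unram (hE : SolvablyClosed E) {U : Subgroup Gal(E/F)}
    (hU : IsOpen (U : Set Gal(E/F))) {P : Ideal (𝓞 E)} [P.IsMaximal] (hℓ : ¬ Over P ℓ)
    (x : XChar ℓ U) {g : Gal(E/F)} (hg : g ∈ inert F P ⊓ U) : x.1 ⟨g, hg.2⟩ = 0 := by
  have := tmb_charZero F E
  have := tmb_algQ F E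
  exact tm_xchar_unram (solv_radClosed hE) hU hℓ x hg

/-- PROPORTIONALITY on `D_U(P)` (replaces residue exponents). -/
theorem xchar_proportional (hE : SolvablyClosed E) {U : Subgroup Gal(E/F)}
    (hU : IsOpen (U : Set Gal(E/F))) {P : Ideal (𝓞 E)} [P.IsMaximal] (hℓ : ¬ Over P ℓ)
    (x y : XChar ℓ U) {σ g : Gal(E/F)} (hσ : IsFrob U P σ) (hg : g ∈ decomp F P ⊓ U) :
    x.1 ⟨g, hg.2⟩ * y.1 ⟨σ, hσ.1⟩ = x.1 ⟨σ, hσ.1⟩ * y.1 ⟨g, hg.2⟩ := by
  have := tmb_charZero F E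
  have := tmb_algQ F E
  exact tm_xchar_proportional (solv_radClosed hE) hU hℓ x y hσ hg

/-- SYLOW CONJUGACY: two tame generators at the same prime and level are conjugate under `I_V(P)`
(up to topological generation). -/
theorem tame_conj (hE : SolvablyClosed E) {V : Subgroup Gal(E/F)} (hV : IsOpen (V : Set Gal(E/F)))
    {P : Ideal (𝓞 E)} [P.IsMaximal] (hℓ : ¬ Over P ℓ) {τ τ' : Gal(E/F)}
    (hτ : IsTameGen ℓ V P τ) (hτ' : IsTameGen ℓ V P τ') :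
    ∃ i ∈ inert F P ⊓ V, τ' ∈ closure (Subgroup.zpowers (i * τ * i⁻¹) : Set Gal(E/F)) := by
  have := tmb_charZero F E
  have := tmb_algQ F E
  exact tm_conj (solv_radClosed hE) hV hℓ hτ hτ'

end Tame

end Claimed.Agent.R239
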