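/-
Row 239 (S0475).  INTERFACE, layer XL.  See the header of Iface/HIL.lean for the layer rules.
(final proofs: XL/Chain.lean `xl_top_*` + XL/FromCFT (CFT/Out) + Det/Detect)
-/
import Claimed.Agent.R239.Iface.HIL
import Claimed.Agent.R239.XL.Chain
import Claimed.Agent.R239.XL.FromCFT
import Claimed.Agent.R239.Det.Detect

set_option autoImplicit false

namespace Claimed.Agent.R239

open NumberField Claims.C0403
open scoped Pointwise

variable {F E : Type} [Field F] [NumberField F] [Field E] [Algebra F E] [IsGalois F E]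

/-! ## XL : the structure of `X_ℓ(M)` (class field theory + logarithm rank) -/

section XL

variable {ℓ : ℕ} [Fact ℓ.Prime]

/-- (I1) -/
theorem xl_finite (hE : SolvablyClosed E) (hodd : ℓ ≠ 2) (U : Subgroup Gal(E/F))
    (hU : IsOpen (U : Set Gal(E/F))) :
    Module.Finite ℚ_[ℓ] (XChar ℓ U) :=
  xl_top_finite (xl_cft1 hodd) hodd hE U hU

theorem xl_finrank_le (hE : SolvablyClosed E) (hodd : ℓ ≠ 2) (U : Subgroup Gal(E/F))
    (hU : IsOpen (U : Set Gal(E/F))) :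
    Module.finrank ℚ_[ℓ] (XChar ℓ U) ≤ Module.finrank ℚ (fld U) :=
  xl_top_finrank_le (xl_cft1 hodd) hodd hE U hU

/-- (I2) `dim X(M_V) - dim X(M_U) ≥ r₂(M_V) - r₂(M_U)` for `V ≤ U`. -/
theorem xl_finrank_diff (hE : SolvablyClosed E) (hodd : ℓ ≠ 2) (U V : Subgroup Gal(E/F))
    (hV : IsOpen (V : Set Gal(E/F))) (hVU : V ≤ U) [NumberField (fld U)] [NumberField (fld V)] :
    Module.finrank ℚ_[ℓ] (XChar ℓ U) + InfinitePlace.nrComplexPlaces (fld V) ≤
      Module.finrank ℚ_[ℓ] (XChar ℓ V) + InfinitePlace.nrComplexPlaces (fld U) :=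
  xl_top_finrank_diff (xl_cft1 hodd) (xl_cft2 hodd) hodd hE U V hV hVU

/-- (I4)(i) FROBENIUS DETECTION (paper Prop. 3.2 (i)). -/
theorem xl_detect (hE : SolvablyClosed E) (hodd : ℓ ≠ 2) (U : Subgroup Gal(E/F))
    (hU : IsOpen (U : Set Gal(E/F))) (x : XChar ℓ U)
    (h : {q : ℕ | q.Prime ∧ ∃ (P : Ideal (𝓞 E)) (σ : Gal(E/F)) (hσ : IsFrob U P σ), P.IsMaximal ∧ Over P q ∧
      q ≠ ℓ ∧ normAt U P = q ∧ x.1 ⟨σ, hσ.1⟩ = 0}.Infinite) : x = 0 :=
  det_xl_detect hE hodd U hU x h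

end XL

end Claimed.Agent.R239
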